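import Vale.Agent.P254.Main

/-!
# P254: polytopes with at most `n+2` vertices
-/

namespace Vale.Agent.Results.P254.FewVertices

open Vale.Agent.P254

/-- For every `n ≥ 1`, a full-dimensional polytope in `ℝ^n` with at most `n+2` vertices has
isotropic constant at most that of a simplex, with equality exactly for simplices. -/
theorem result (n : ℕ) (hn : 1 ≤ n) (v : Fin (n + 2) → Fin n → ℝ)
    (hv : (interior (convexHull ℝ (Set.range v))).Nonempty)
    (p : Fin (n + 1) → Fin n → ℝ) (hp : AffineIndependent ℝ p) :
    isoConst (convexHull ℝ (Set.range v)) ≤ isoConst (convexHull ℝ (Set.range p)) ∧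
      (isoConst (convexHull ℝ (Set.range v)) = isoConst (convexHull ℝ (Set.range p)) ↔
        IsSimplex (convexHull ℝ (Set.range v))) :=
  few_vertices hn v hv p hp

end Vale.Agent.Results.P254.FewVertices
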