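import Vale.Agent.P254.Unc.AffineClass
import Vale.Agent.P254.Unc.Cert.Conv

/-!
# P254: the strong isotropic constant inequality for unconditional bodies
-/

open MeasureTheory Set Matrix

namespace Vale.Agent.Results.P254.UnconditionalBodies

open Vale.Agent.P254

/-- In every dimension `n ≥ 120`, an affine image of a convex body that is invariant under all
coordinate sign changes has isotropic constant strictly below that of a simplex. -/
theorem result :
    ∀ n : ℕ, 120 ≤ n → ∀ K : Set (Fin n → ℝ), IsCompact K → Convex ℝ K → (interior K).Nonempty →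
      (∀ x ∈ K, ∀ y : Fin n → ℝ, (∀ i, |y i| = |x i|) → y ∈ K) →
      ∀ A : Matrix (Fin n) (Fin n) ℝ, A.det ≠ 0 → ∀ b : Fin n → ℝ,
      ∀ S : Set (Fin n → ℝ), IsSimplex S →
        isoConst ((fun x => b + A *ᵥ x) '' K) < isoConst S := by
  intro n hn K hcpt hconv hint hsign A hA b S hS
  obtain ⟨ψ, s, hP, hSt, hC⟩ := Unc.Cert.Psi.exists_potential
  have hn' : (120 : ℝ) ≤ n := by exact_mod_cast hn
  exact Unc.isoConst_image_lt hP hSt hC (by omega) (by norm_num; linarith)
    ⟨hcpt, hconv, hint, hsign⟩ A hA b hS

end Vale.Agent.Results.P254.UnconditionalBodies
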